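import Vale.Agent.P305U.Defs
import Vale.Agent.P305Y.Defs

/-!
# What the soundness proof needs from the tables of a level
-/

namespace Vale.Agent.P305W

open Vale.Agent.P305E Vale.Agent.P305M Vale.Agent.P305U Vale.Agent.P305Y

/-- Tails of items. -/
abbrev fta (it : ℕ → RA) (z : ℕ) : ℕ := (it z).1
/-- Heads of items. -/
abbrev fhd (it : ℕ → RA) (z : ℕ) : ℕ := (it z).2.1
/-- Lengths of items. -/
abbrev fln (it : ℕ → RA) (z : ℕ) : ℕ := (it z).2.2.1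
/-- Gradients of items. -/
abbrev fg (it : ℕ → RA) (z : ℕ) : ℤ := (it z).2.2.2

theorem iw_iff {it : ℕ → RA} {w : SW} {u v : ℕ} : IW (fta it) (fhd it) u w v ↔ Wlk it u w v := by
  induction w generalizing u with
  | nil => rfl
  | cons c w ih => exact and_congr Iff.rfl ih

theorem rev_eq (w : SW) : rev w = P305Y.rev w := rfl

/-- The tables of `L` belong to the objects of `V` (object number `i` has the replacement walk
`Q i`, whose length is at most `ql` of its scale). -/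
structure TabOK (it : ℕ → RA) (V : LV) (Q : ℕ → SW) (ql : ℕ → ℕ) (G : List ℕ) (L : Lvl) (κ : ℕ) :
    Prop where
  wq : ∀ i o, V.obs[i]? = some o → Wlk it (V.a0 o) (Q i) (V.b0 o)
  qk : ∀ i o, V.obs[i]? = some o → ∀ c ∈ Q i, c.1 ∈ L.K
  qw : ∀ i o, V.obs[i]? = some o → wlen it (Q i) ≤ ql o.sc
  kk : ∀ z ∈ L.K, z ∈ G ∨ z ∈ L.P
  em : ∀ i o, V.obs[i]? = some o → ∀ c ∈ V.F.W o ++ Q i, ∀ c' ∈ V.F.W o ++ Q i, c'.1 ∈ L.em c.1
  cem : ∀ i o, V.obs[i]? = some o → ∀ C, o.tr = some C → ∀ c ∈ V.F.W o ++ Q i, c.1 ∈ L.cem C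
  tle : ∀ z, z ∈ G ∨ z ∈ L.P → (it z).1 ∈ L.tl z ∧ (it z).2.1 ∈ L.tl z
  tlr : ∀ a ∈ V.ns, V.F.r a % V.N ∈ L.tl (V.F.te.get a).1
  ctl : ∀ o ∈ V.obs, ∀ C, o.tr = some C → V.ctr.get C ∈ L.ctl C ∧ V.b0 o ∈ L.ctl C
  cls : ∀ u C, C ∈ L.cls u ↔ C ∈ V.cls.get u
  cand : ∀ i o, V.obs[i]? = some o →
    (κ * wlen it (V.F.W o ++ P305Y.rev (Q i)) : ℤ) < |wg it (V.F.W o ++ P305Y.rev (Q i))| →
    ∃ w ∈ L.cand, ∀ c ∈ w, ∃ c' ∈ V.F.W o ++ Q i, c'.1 = c.1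

end Vale.Agent.P305W
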