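import Vale.Agent.P305Q.Dag

/-!
# Signed walks over items, values of valid prefixes, consistency of objects

Items are natural numbers with ends `ta z`, `hd z`, a length `len z` and a gradient `g z`.
-/

namespace Vale.Agent.P305W

open Vale.Agent.P305Q

/-- A signed item: `true` means from `ta` to `hd`. -/
abbrev SI : Type := ℕ × Bool

/-- The vertex at which the traversal starts. -/
def src (ta hd : ℕ → ℕ) (c : SI) : ℕ := if c.2 then ta c.1 else hd c.1
/-- The vertex at which the traversal ends. -/
def dst (ta hd : ℕ → ℕ) (c : SI) : ℕ := if c.2 then hd c.1 else ta c.1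

/-- `IW ta hd a l b`: the list `l` is a walk from `a` to `b`. -/
def IW (ta hd : ℕ → ℕ) : ℕ → List SI → ℕ → Prop
  | a, [], b => a = b
  | a, c :: l, b => src ta hd c = a ∧ IW ta hd (dst ta hd c) l b

/-- The reversed walk. -/
def rev (l : List SI) : List SI := (l.map fun c => (c.1, !c.2)).reverse

variable {ta hd ta' hd' len : ℕ → ℕ} {g : ℕ → ℤ} {ok : ℕ → Prop} {φ ψ : ℕ → ℝ} {κ E : ℝ}
  {a b x y : ℕ} {l l' : List SI} {c : SI}

@[simp] theorem IW_nil : IW ta hd a [] b ↔ a = b := Iff.rfl
@[simp] theorem IW_cons : IW ta hd a (c :: l) b ↔ src ta hd c = a ∧ IW ta hd (dst ta hd c) l b :=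
  Iff.rfl
@[simp] theorem rev_nil : rev [] = [] := rfl
@[simp] theorem rev_cons : rev (c :: l) = rev l ++ [(c.1, !c.2)] := by simp [rev]
@[simp] theorem rev_append : rev (l ++ l') = rev l' ++ rev l := by simp [rev]
@[simp] theorem length_rev : (rev l).length = l.length := by simp [rev]
@[simp] theorem src_not : src ta hd (c.1, !c.2) = dst ta hd c := by
  unfold src dst; cases c.2 <;> simp
@[simp] theorem dst_not : dst ta hd (c.1, !c.2) = src ta hd c := by
  unfold src dst; cases c.2 <;> simp

theorem mem_rev : c ∈ rev l ↔ (c.1, !c.2) ∈ l := by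
  simp only [rev, List.mem_reverse, List.mem_map]
  constructor
  · rintro ⟨d, hd, rfl⟩; simpa using hd
  · intro h; exact ⟨_, h, by simp⟩

theorem fst_mem_rev {z : ℕ} : z ∈ (rev l).map Prod.fst ↔ z ∈ l.map Prod.fst := by
  simp [rev, Function.comp_def]

theorem IW.append (h : IW ta hd a l x) (h' : IW ta hd x l' b) : IW ta hd a (l ++ l') b := by
  induction l generalizing a with
  | nil => rw [IW_nil] at h; subst h; exact h'
  | cons c l ih => exact ⟨h.1, ih h.2⟩

theorem IW.split (h : IW ta hd a (l ++ l') b) : ∃ x, IW ta hd a l x ∧ IW ta hd x l' b := by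
  induction l generalizing a with
  | nil => exact ⟨a, rfl, h⟩
  | cons c l ih =>
    obtain ⟨x, h1, h2⟩ := ih h.2
    exact ⟨x, ⟨h.1, h1⟩, h2⟩

theorem IW.rev (h : IW ta hd a l b) : IW ta hd b (rev l) a := by
  induction l generalizing a with
  | nil => exact h.symm
  | cons c l ih =>
    rw [rev_cons]
    exact (ih h.2).append ⟨src_not, by rw [dst_not]; exact h.1⟩

theorem IW.congr (h : IW ta hd a l b) (h1 : ∀ c ∈ l, ta' c.1 = ta c.1 ∧ hd' c.1 = hd c.1) :
    IW ta' hd' a l b := by
  induction l generalizing a with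
  | nil => exact h
  | cons c l ih =>
    have e := h1 c (by simp)
    have e1 : src ta' hd' c = src ta hd c := by simp only [src, e.1, e.2]
    have e2 : dst ta' hd' c = dst ta hd c := by simp only [dst, e.1, e.2]
    exact ⟨e1.trans h.1, e2 ▸ ih h.2 fun c hc => h1 c (by simp [hc])⟩

@[simp] theorem ssum_rev (v : ℕ → ℤ) (l : List SI) : ssum v (rev l) = -ssum v l := by
  induction l with
  | nil => simp
  | cons c l ih => simp [ih]

@[simp] theorem nsum_rev (v : ℕ → ℕ) (l : List SI) : nsum v (rev l) = nsum v l := by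
  induction l with
  | nil => simp
  | cons c l ih => simp [ih, add_comm]

/-- Potential differences add along a walk. -/
theorem IW.ssum_pot (h : IW ta hd a l b) (p : ℕ → ℤ) :
    ssum (fun z => p (hd z) - p (ta z)) l = p b - p a := by
  induction l generalizing a with
  | nil => rw [IW_nil] at h; simp [h]
  | cons c l ih =>
    rw [ssum_cons, ih h.2, ← h.1]
    unfold src dst
    cases c.2 <;> simp

/-- The potential `φ` fits the gradient of the item `z` up to `κ` times its length. -/
def Con (ta hd len : ℕ → ℕ) (g : ℕ → ℤ) (κ : ℝ) (φ : ℕ → ℝ) (z : ℕ) : Prop :=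
  |φ (hd z) - φ (ta z) - g z| ≤ κ * len z

theorem Con.mono {z : ℕ} {κ' : ℝ} (h : Con ta hd len g κ φ z) (hk : κ ≤ κ') :
    Con ta hd len g κ' φ z := h.trans (mul_le_mul_of_nonneg_right hk (by positivity))

theorem Con.sgn (h : Con ta hd len g κ φ c.1) :
    |φ (dst ta hd c) - φ (src ta hd c) - (sg c.2 * g c.1 : ℤ)| ≤ κ * len c.1 := by
  unfold Con at h
  unfold src dst
  cases c.2
  · simp only [Bool.false_eq_true, if_false, sg_false]
    rw [← abs_neg]
    refine le_trans (le_of_eq ?_) h
    congr 1; push_cast; ring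
  · simpa using h

theorem IW.con (h : IW ta hd a l b) (hc : ∀ c ∈ l, Con ta hd len g κ φ c.1) :
    |φ b - φ a - (ssum g l : ℤ)| ≤ κ * nsum len l := by
  induction l generalizing a with
  | nil => rw [IW_nil] at h; simp [h]
  | cons c l ih =>
    have h1 := ih h.2 fun c hc' => hc c (by simp [hc'])
    have h2 := (hc c (by simp)).sgn
    rw [h.1] at h2
    rw [ssum_cons, nsum_cons]
    push_cast at h1 h2 ⊢
    rw [abs_le] at h1 h2 ⊢
    constructor <;> nlinarith [h1.1, h1.2, h2.1, h2.2]

open Classical in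
/-- The value of `φ` seen from `x` along the valid prefix of a walk. -/
noncomputable def val (ta hd : ℕ → ℕ) (g : ℕ → ℤ) (ok : ℕ → Prop) (φ : ℕ → ℝ) :
    ℕ → List SI → ℝ
  | x, [] => φ x
  | x, c :: l => if ok c.1 then val ta hd g ok φ (dst ta hd c) l - (sg c.2 * g c.1 : ℤ) else φ x

theorem val_ok (h : IW ta hd x l a) (ho : ∀ c ∈ l, ok c.1) :
    val ta hd g ok φ x l = φ a - (ssum g l : ℤ) := by
  induction l generalizing x with
  | nil => rw [IW_nil] at h; simp [val, h]
  | cons c l ih =>
    rw [val, if_pos (ho c (by simp)), ih h.2 fun c hc => ho c (by simp [hc]), ssum_cons]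
    push_cast; ring

/-- The value is close to `ψ x` if `φ` and `ψ` are close where the valid prefix ends. -/
theorem val_near (hκ : 0 ≤ κ) (hE : 0 ≤ E) (h : IW ta hd x l a)
    (hc : ∀ c ∈ l, ok c.1 → Con ta hd len g κ ψ c.1)
    (hb : ∀ c ∈ l, ¬ ok c.1 → φ (src ta hd c) = ψ (src ta hd c)) (ha : |φ a - ψ a| ≤ E) :
    |val ta hd g ok φ x l - ψ x| ≤ E + κ * nsum len l := by
  induction l generalizing x with
  | nil => rw [IW_nil] at h; simpa [val, h] using ha
  | cons c l ih =>
    rw [val]
    split_ifs with q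
    · have h1 := ih h.2 (fun c hc' => hc c (by simp [hc'])) fun c hc' => hb c (by simp [hc'])
      have h2 := (hc c (by simp) q).sgn
      rw [h.1] at h2
      rw [nsum_cons]
      push_cast at h1 h2 ⊢
      rw [abs_le] at h1 h2 ⊢
      constructor <;> nlinarith [h1.1, h1.2, h2.1, h2.2]
    · have := hb c (by simp) q
      rw [h.1] at this
      rw [this, sub_self, abs_zero]
      positivity

/-- Two potentials that fit the valid items of a walk and agree at its first invalid item (or at
its end) are close at its start. -/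
theorem agree (hκ : 0 ≤ κ) (h : IW ta hd a l b)
    (hc : ∀ c ∈ l, ok c.1 → Con ta hd len g κ φ c.1 ∧ Con ta hd len g κ ψ c.1)
    (hb : ∀ c ∈ l, ¬ ok c.1 → φ (src ta hd c) = ψ (src ta hd c))
    (he : (∀ c ∈ l, ok c.1) → φ b = ψ b) : |φ a - ψ a| ≤ 2 * κ * nsum len l := by
  induction l generalizing a with
  | nil => rw [IW_nil] at h; simp [h, he (by simp)]
  | cons c l ih =>
    by_cases q : ok c.1
    · have h1 := ih h.2 (fun c hc' => hc c (by simp [hc'])) (fun c hc' => hb c (by simp [hc']))
        fun ho => he (by simpa [q] using ho)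
      have h2 := (hc c (by simp) q).1.sgn
      have h3 := (hc c (by simp) q).2.sgn
      rw [h.1] at h2 h3
      rw [nsum_cons]
      push_cast at h1 h2 h3 ⊢
      rw [abs_le] at h1 h2 h3 ⊢
      constructor <;> nlinarith [h1.1, h1.2, h2.1, h2.2, h3.1, h3.2]
    · have := hb c (by simp) q
      rw [h.1] at this
      rw [this, sub_self, abs_zero]
      positivity

end Vale.Agent.P305W
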