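import Vale.Agent.P305W.Sound
import Vale.Agent.P305BD.Defs
import Vale.Agent.P305RB.Tabs

/-!
# Soundness of a level from the specifications of the blocks
-/

namespace Vale.Agent.P305W

open Vale.Agent.P305E Vale.Agent.P305M Vale.Agent.P305U Vale.Agent.P305Y Vale.Agent.P305Q
  Vale.Agent.P305CV Vale.Agent.P305BD Vale.Agent.P305X

variable {N k J κ b D Lm γ Λ Γ : ℕ} {PA R : ℕ → ℕ} {vs G P K Sk : List ℕ} {S S' : Sto}
  {cs : List (ℕ × Cl)} {V : LV} {Q Pi : ℕ → SW} {L : Lvl} {own : ℕ → List ℕ}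

theorem obj_eq {i : ℕ} {o : Ob} (h : V.obs[i]? = some o) : i < V.obs.length ∧ obj V i = o := by
  obtain ⟨hi, e⟩ := List.getElem?_eq_some_iff.1 h
  exact ⟨hi, by rw [obj, List.getD_eq_getElem _ _ hi, e]⟩

theorem wo_eq {ta hd len : ℕ → ℕ} {G' : List WE} (h : LvOK ta hd len N k J PA R vs G' cs V)
    (o : Ob) : Wo (spk V.F.sp.get V.F.te.get) (o4 o) = V.F.W o := by
  simp only [Wo, spk, o4, Fo.W, h.wk, rev_eq]

theorem sc_le {ta hd len : ℕ → ℕ} {G' : List WE} (h : LvOK ta hd len N k J PA R vs G' cs V)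
    (hM : MCov b D G' vs cs) {o : Ob} (hm : o ∈ V.obs) : o.sc ≤ D := by
  have A : ∀ j u, Mem cs j u → V.sc.get j ≤ D := fun j u ⟨p, a, _⟩ =>
    (h.info j p a).1 ▸ hM.sc p (List.mem_of_getElem? a)
  rcases (h.obs o).1 hm with ⟨e, -, j, a, rfl⟩ | ⟨v, j1, j2, a, -, -, rfl⟩ | ⟨v, j1, j2, a, -, rfl⟩
  exacts [A _ _ a.1, A _ _ a.2.1, A _ _ a.2.1]

theorem wlen_W {ta hd len : ℕ → ℕ} {G' : List WE} (h : LvOK ta hd len N k J PA R vs G' cs V)
    (hP : ∀ s ≤ D, PA s = PS b s) (hM : MCov b D G' vs cs) (hR : ∀ s ≤ D, 2 * R s ≤ PS b (s + 1))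
    {o : Ob} (hm : o ∈ V.obs) : nsum len (V.F.W o) ≤ 3 * PS b (o.sc + 1) := by
  have hs := sc_le h hM hm
  obtain ⟨a1, a2, -⟩ := h.olen o hm
  have a4 := hR _ hs
  have a5 := hR (o.sc - 1) (by omega)
  rw [Nat.sub_add_cancel a1] at a5
  have a6 := PS_mono b (Nat.le_add_right o.sc 1)
  rw [hP _ hs] at a2
  omega

/-- **Soundness of a level** from the specifications of the blocks. -/
theorem sound_of
    (hi : In (fta S.1.get) (fhd S.1.get) (fln S.1.get) N J R vs (G.map (we S.1.get)) cs)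
    (h : LvOK (fta S.1.get) (fhd S.1.get) (fln S.1.get) N k J PA R vs (G.map (we S.1.get)) cs V)
    (hP : ∀ s ≤ D, PA s = PS b s) (hM : MCov b D (G.map (we S.1.get)) vs cs)
    (hR : ∀ s ≤ D, 2 * R s ≤ PS b (s + 1))
    (hG : ∀ z ∈ G, z < S.2.2 ∧ 1 ≤ fln S.1.get z ∧ fln S.1.get z ≤ Lm)
    (hD : vs.length * Lm ≤ PS b D) (hD1 : 1 ≤ D)
    (hr : RwOK (fun i => e3 V (obj V i)) V.obs.length γ Λ Sk Pi)
    (hc : CompOK V.F.sp.get V.F.te.get (fun i => o4 (obj V i)) (fun i => V.a0 (obj V i))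
      (fun i => V.b0 (obj V i)) Sk (List.range V.obs.length) Pi k γ S S' P K Q own)
    (ht : P305RB.TabOK κ cs.length S' G P K V Q L)
    (hΓ : (2 * D + 1 + 4 * (b + 1) * D) * (12 * (γ + 1) * (16 * b + 16) ^ 2) ≤ Γ) :
    Sound S'.1.get G L κ Γ := by
  have zi : ∀ {i o}, V.obs[i]? = some o → (o, i) ∈ V.obs.zipIdx := fun ho =>
    List.mem_zipIdx_iff_getElem?.2 ho
  have it' : ∀ {i o} {c : SI}, c ∈ V.F.W o ++ Q i → c.1 ∈ P305RB.its V Q (o, i) := by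
    intro i o c hc
    simp only [P305RB.its, P305RB.cyc, List.map_append, List.mem_append] at hc ⊢
    exact hc.imp (fun a => List.mem_map_of_mem a) fun a => fst_mem_rev.2 (List.mem_map_of_mem a)
  have ti : ∀ {i o} {c : SI}, c ∈ P305RB.cyc V Q (o, i) → ∃ c' ∈ V.F.W o ++ Q i, c'.1 = c.1 := by
    intro i o c hc
    rcases List.mem_append.1 hc with a | a
    · exact ⟨c, List.mem_append_left _ a, rfl⟩
    · exact ⟨(c.1, !c.2), List.mem_append_right _ (mem_rev.1 a), rfl⟩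
  have hG' : ∀ z, z ∈ G ↔ ∃ e ∈ G.map (we S.1.get), e.2.2.2 = z := fun z =>
    ⟨fun a => ⟨_, List.mem_map_of_mem a, rfl⟩, fun ⟨e, a, q⟩ => by
      obtain ⟨y, hy, rfl⟩ := List.mem_map.1 a
      exact q ▸ hy⟩
  refine sound (ql := fun s => γ * (3 * PS b (s + 1))) (Q := Q) hi h hP hM hR (fun e a => ?_) hD hD1
    hG' (fun z hz => (hc.old z (hG z hz).1).1) ?_ (fun _ _ => le_rfl) hΓ
  · obtain ⟨y, hy, rfl⟩ := List.mem_map.1 a
    exact (hG y hy).2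
  refine ⟨fun i o ho => ?_, fun i o ho c hc' => ?_, fun i o ho => ?_, fun z hz => ?_,
    fun i o ho c a c' a' => (ht.em _ _).2 ⟨_, zi ho, it' a, it' a'⟩,
    fun i o ho C a c a' => (ht.cem _ _).2 ⟨_, zi ho, a, it' a'⟩,
    fun z hz => ⟨(ht.tl _ _).2 (Or.inl ⟨ht.eP ▸ hz, Or.inl rfl⟩),
      (ht.tl _ _).2 (Or.inl ⟨ht.eP ▸ hz, Or.inr rfl⟩)⟩,
    fun a ha => (ht.tl _ _).2 (Or.inr ⟨a, ha, rfl, rfl⟩), fun o ho C hC => ?_,
    fun u C => by rw [ht.cls], fun i o ho q => ?_⟩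
  · obtain ⟨a, rfl⟩ := obj_eq ho
    exact hc.walk i (List.mem_range.2 a) _ _ (hr.walk i a)
  · exact ht.eK ▸ hc.qk i (List.mem_range.2 (obj_eq ho).1) c hc'
  · obtain ⟨a, rfl⟩ := obj_eq ho
    rw [hc.qw i (List.mem_range.2 a)]
    refine le_trans ?_ (Nat.mul_le_mul_right _ (hr.hops i a))
    refine (nsum_le (v' := fun _ => 3 * PS b ((obj V i).sc + 1)) fun s hs => ?_).trans
      (by simp [nsum])
    obtain ⟨a1, a2⟩ := hr.skel i a s hs
    rw [wo_eq h, ← show (obj V s.1).sc = (obj V i).sc from a2]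
    exact wlen_W h hP hM hR (obj_mem (hr.sub _ a1).1)
  · rw [ht.eK] at hz
    rw [ht.eP]
    rcases hc.kmem z hz with a | ⟨s, a1, d, a2⟩
    · exact Or.inr a
    · refine Or.inl ((hG' z).2 ((h.olen _ (obj_mem (hr.sub _ a1).1)).2.2.2 (z, d) ?_))
      simp only [o4] at a2
      simp [Fo.W, a2]
  · rcases (h.obs o).1 ho with ⟨e, -, j', -, rfl⟩ | ⟨v, j1, j2, -, -, -, rfl⟩ |
      ⟨v, j1, j2, ⟨⟨p, a1, -⟩, -, a2, -⟩, -, rfl⟩
    · simp [kap] at hC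
    · simp [lam] at hC
    · simp only [mu, Option.some.injEq] at hC
      subst hC
      have a3 := (List.getElem?_eq_some_iff.1 a1).1
      exact ⟨(ht.ctl _ _).2 ⟨a3, Or.inl rfl⟩,
        (ht.ctl _ _).2 ⟨a3, Or.inr ⟨j2, (h.cls _ _).2 a2, rfl⟩⟩⟩
  · rcases ht.cover _ (zi ho) with (a | a) | a
    · exact ⟨_, a, fun c hc => ti hc⟩
    · exact ⟨_, a, fun c hc => ti (c := (c.1, !c.2)) (mem_rev.1 hc)⟩
    · exact absurd q (not_lt.2 a)

end Vale.Agent.P305W
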