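import Vale.Agent.P305W.Walk

/-!
# Ghost objects and ghost levels: what the centrality proof needs to know
-/

namespace Vale.Agent.P305W

open Vale.Agent.P305Q

/-- A ghost object: the walk `rev px ++ mid ++ py` from `a` to `b` through `x` and `y`, the
replacement walk `Q`, the nominal length and the cluster that triggers it (if any). -/
structure GO where
  x : ℕ
  y : ℕ
  a : ℕ
  b : ℕ
  px : List SI
  mid : List SI
  py : List SI
  Q : List SI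
  nom : ℕ
  tc : Option ℕ

namespace GO

/-- The walk of the object. -/
def W (o : GO) : List SI := rev o.px ++ o.mid ++ o.py

/-- The item `z` occurs in the object. -/
def Has (o : GO) (z : ℕ) : Prop :=
  (∃ c ∈ o.px, c.1 = z) ∨ (∃ c ∈ o.mid, c.1 = z) ∨ (∃ c ∈ o.py, c.1 = z) ∨ ∃ c ∈ o.Q, c.1 = z

/-- The trigger cluster is broken. -/
def Bk (o : GO) (brk : ℕ → Prop) : Prop := ∃ C, o.tc = some C ∧ brk C

/-- The object has fired. -/
def Fired (o : GO) (ok brk : ℕ → Prop) : Prop := (∃ z, o.Has z ∧ ¬ ok z) ∨ o.Bk brk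

/-- The vertices that must have been touched at the higher levels. -/
def Need (ta hd : ℕ → ℕ) (o : GO) (ok brk : ℕ → Prop) (v : ℕ) : Prop :=
  (∃ z, o.Has z ∧ ¬ ok z ∧ (v = ta z ∨ v = hd z)) ∨ (v = o.a ∧ ∃ c ∈ o.px, ¬ ok c.1) ∨
    (v = o.b ∧ ∃ c ∈ o.py, ¬ ok c.1) ∨ (o.Bk brk ∧ (v = o.y ∨ v = o.b))

/-- Static facts about an object; `K` is the set of items that go to the next level. -/
structure OK (ta hd len : ℕ → ℕ) (K : ℕ → Prop) (o : GO) : Prop where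
  wx : IW ta hd o.x o.px o.a
  wm : IW ta hd o.x o.mid o.y
  wy : IW ta hd o.y o.py o.b
  wq : IW ta hd o.a o.Q o.b
  qK : ∀ c ∈ o.Q, K c.1
  nom : nsum len o.px + nsum len o.mid + nsum len o.py + nsum len o.Q ≤ o.nom

/-- The object is not a candidate. -/
def Flat (g : ℕ → ℤ) (kap : ℕ) (o : GO) : Prop := |ssum g o.W - ssum g o.Q| ≤ kap * o.nom

end GO

/-- A ghost level. Clusters are numbers; `I s` are the clusters of scale `s`. -/
structure GV where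
  D : ℕ
  P : ℕ → ℕ
  G : ℕ → Prop
  K : ℕ → Prop
  I : ℕ → Finset ℕ
  mem : ℕ → ℕ → Prop
  ctr : ℕ → ℕ
  hv : ℕ → Prop
  sp : ℕ → ℕ → List SI
  obs : GO → Prop

namespace GV

/-- The edges of the graph of the level. -/
def E (ta hd len : ℕ → ℕ) (T : GV) (u v l : ℕ) : Prop :=
  ∃ z, T.G z ∧ len z = l ∧ ((ta z = u ∧ hd z = v) ∨ (ta z = v ∧ hd z = u))

/-- The vertex `u` is touched (or absent): its clusters below the top are heavy or broken. -/
def Tch (T : GV) (brk : ℕ → Prop) (u : ℕ) : Prop :=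
  ∀ s < T.D, ∀ C ∈ T.I s, T.mem C u → T.hv C ∨ brk C

/-- Static facts about the objects of a level (the cover is a separate hypothesis). -/
structure Stat (ta hd len : ℕ → ℕ) (Λ : ℕ) (T : GV) : Prop where
  ob : ∀ o, T.obs o → o.OK ta hd len T.K
  zero : ∀ C ∈ T.I 0, ∀ u, T.mem C u → T.sp C u = []
  spG : ∀ s < T.D, ∀ C ∈ T.I s, ¬ T.hv C → ∀ u, T.mem C u → ∀ c ∈ T.sp C u,
    T.G c.1 ∧ T.mem C (ta c.1)
  kap : ∀ z, T.G z → ∃ t < T.D, T.P t ≤ len z ∧ len z ≤ T.P (t + 1) ∧ ∀ C ∈ T.I (t + 1),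
    T.mem C (ta z) → T.mem C (hd z) → ∃ o, T.obs o ∧ o.x = ta z ∧ o.y = hd z ∧
      o.px = T.sp C (ta z) ∧ o.mid = [(z, true)] ∧ o.py = T.sp C (hd z) ∧ o.nom ≤ Λ * T.P t
  lam : ∀ s < T.D, ∀ C ∈ T.I s, ∀ C' ∈ T.I (s + 1), T.hv C → (∀ x, T.mem C x → T.mem C' x) →
    ∀ u, T.mem C u → ∃ o, T.obs o ∧ o.x = u ∧ o.y = u ∧
      o.px = T.sp C u ∧ o.mid = [] ∧ o.py = T.sp C' u ∧ o.nom ≤ Λ * T.P s
  mu : ∀ s < T.D, ∀ C ∈ T.I s, ∀ C' ∈ T.I (s + 1), ¬ T.hv C → (∀ x, T.mem C x → T.mem C' x) →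
    ∀ u, T.mem C u → ∃ o, T.obs o ∧ o.x = u ∧ o.y = T.ctr C ∧ o.px = T.sp C' u ∧
      o.mid = T.sp C u ∧ o.py = T.sp C' (T.ctr C) ∧ o.tc = some C ∧ o.nom ≤ Λ * T.P s

end GV

/-- The dynamic invariants at a moment when the levels `0, …, L` are all certified: `lv j` is the
level `j`, `brk j` its broken clusters, `ok` the valid items. -/
structure Dyn (ta hd : ℕ → ℕ) (ok : ℕ → Prop) (L : ℕ) (lv : ℕ → GV) (brk : ℕ → ℕ → Prop) :
    Prop where
  B : ∀ i ≤ L, ∀ z, (lv i).G z → ¬ ok z → (lv i).Tch (brk i) (ta z)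
  K : ∀ i ≤ L, ∀ z, (lv i).K z → ok z → i < L ∧ (lv (i + 1)).G z
  T : ∀ i ≤ L, ∀ o, (lv i).obs o → o.Fired ok (brk i) → ∃ l, i < l ∧ l ≤ L ∧
    (∀ z, o.Has z → ok z → (lv l).G z) ∧
    ∀ j, i < j → j < l → ∀ v, o.Need ta hd ok (brk i) v → (lv j).Tch (brk j) v

end Vale.Agent.P305W
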