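import Vale.Agent.P305W.Obj
import Vale.Agent.P305V.Diam

/-!
# The level lemma and the centrality theorem
-/

namespace Vale.Agent.P305W

open Vale.Agent.P305Q Vale.Agent.P305V

variable {ta hd len : ℕ → ℕ} {g : ℕ → ℤ} {ok : ℕ → Prop}

/-- The cover of a ghost level. -/
def GV.Cv (ta hd len : ℕ → ℕ) (J : ℕ) (T : GV) : Prop :=
  ∃ Vx, Cov (T.E ta hd len) Vx T.D J T.P T.I fun _ => T.mem

/-- One level: a potential for the next level gives a potential for this level. -/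
theorem level {T : GV} {brk : ℕ → Prop} {J Λ kap : ℕ} {κ : ℝ} {φ' : ℕ → ℝ} (hk : (kap : ℝ) ≤ κ)
    (hc : T.Cv ta hd len J) (hs : T.Stat ta hd len Λ)
    (hB : ∀ z, T.G z → ¬ ok z → T.Tch brk (ta z))
    (hφ : ∀ z, T.K z → ok z → Con ta hd len g κ φ' z)
    (hU : ∀ o, T.obs o → ¬ o.Fired ok brk → o.Flat g kap)
    (hF : ∀ o, T.obs o → o.Fired ok brk → ∃ ψ, (∀ z, o.Has z → ok z → Con ta hd len g κ ψ z) ∧
      ∀ v, o.Need ta hd ok brk v → φ' v = ψ v) :
    ∃ φ : ℕ → ℝ, (∀ u, T.Tch brk u → φ u = φ' u) ∧ ∀ z, T.G z → ok z →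
      Con ta hd len g ((2 * T.D + 1 + 4 * J * T.D) * (4 * κ * Λ)) φ z := by
  classical
  have hκ : 0 ≤ κ := le_trans (by positivity) hk
  obtain ⟨Vx, hc⟩ := hc
  set V : ℕ → ℕ → ℝ := fun C u => val ta hd g ok φ' u (T.sp C u) with hV
  have nm : ∀ {o : GO} {s : ℕ}, o.nom ≤ Λ * T.P s → 4 * κ * o.nom ≤ 4 * κ * Λ * T.P s := by
    intro o s h
    have : (o.nom : ℝ) ≤ Λ * T.P s := by exact_mod_cast h
    rw [mul_assoc (4 * κ)]
    exact mul_le_mul_of_nonneg_left this (by positivity)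
  have hv : Vert T.D T.I (fun _ => T.mem) (fun _ => V) φ'
      (fun _ C C' => if T.hv C ∨ brk C then 0 else V C' (T.ctr C) - φ' (T.ctr C))
      fun s => 4 * κ * Λ * T.P (s - 1) := by
    constructor
    · intro C hC u hu
      simp only [hV, hs.zero C hC u hu, val]
    · intro s hsD C hC C' hC' u hu hsub
      simp only [Nat.add_sub_cancel]
      by_cases q : T.hv C
      · obtain ⟨o, ho, e1, e2, e3, e4, e5, e6⟩ := hs.lam s hsD C hC C' hC' q hsub u hu
        have := GO.oc_mid hk (hs.ob o ho) hφ (hU o ho) (hF o ho) (by simp [e4])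
        rw [e1, e2, e3, e4, e5] at this
        rw [if_pos (Or.inl q), zero_sub, abs_neg]
        simpa using this.trans (nm e6)
      · obtain ⟨o, ho, e1, e2, e3, e4, e5, e6, e7⟩ := hs.mu s hsD C hC C' hC' q hsub u hu
        by_cases r : brk C
        · have := GO.oc_brk hκ (hs.ob o ho) hφ ⟨C, e6, r⟩ (hF o ho)
          rw [e1, e3, e4] at this
          rw [if_pos (Or.inr r), zero_sub, abs_neg]
          exact this.trans (nm e7)
        · have hm : ∀ c ∈ o.mid, ok c.1 := fun c hc' => by_contra fun k => by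
            obtain ⟨a1, a2⟩ := hs.spG s hsD C hC q u hu c (e4 ▸ hc')
            exact (hB _ a1 k s hsD C hC a2).elim q r
          have := GO.oc_mid hk (hs.ob o ho) hφ (hU o ho) (hF o ho) hm
          have e8 := val_ok (g := g) (φ := φ') (hs.ob o ho).wm hm
          rw [e1, e2, e4] at e8
          rw [e1, e2, e3, e4, e5] at this
          rw [if_neg (not_or.2 ⟨q, r⟩)]
          refine le_trans (le_of_eq ?_) (this.trans (nm e7))
          simp only [hV, e8]
          congr 1; ring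
  obtain ⟨φ, h1, h2⟩ := lift hc hv (Γ := 4 * κ * Λ) (by positivity) fun s _ => by simp
  refine ⟨φ, fun u hu => h1 u fun s hsD C hC C' _ hm _ => if_pos (hu s hsD C hC hm), ?_⟩
  intro z hz q
  obtain ⟨t, ht, a1, a2, a3⟩ := hs.kap z hz
  refine h2 _ _ _ t _ ⟨z, hz, rfl, Or.inl ⟨rfl, rfl⟩⟩ ht a1 a2 fun C hC m1 m2 => ?_
  obtain ⟨o, ho, e1, e2, e3, e4, e5, e6⟩ := a3 C hC m1 m2
  have := GO.oc_mid hk (hs.ob o ho) hφ (hU o ho) (hF o ho) (by simpa [e4] using q)
  rw [e1, e2, e3, e4, e5] at this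
  simpa using this.trans (nm e6)

/-- **Centrality.** If no object that has not fired is a candidate, then one potential fits every
valid item that lies in the graph of some level and whose ends are touched below that level. -/
theorem central {L J Λ Γ kap : ℕ} {lv : ℕ → GV} {brk : ℕ → ℕ → Prop} (hΛ : 1 ≤ Λ)
    (hΓ : ∀ i ≤ L, (2 * (lv i).D + 1 + 4 * J * (lv i).D) * (4 * Λ) ≤ Γ)
    (hc : ∀ i ≤ L, (lv i).Cv ta hd len J) (hs : ∀ i ≤ L, (lv i).Stat ta hd len Λ)
    (hd' : Dyn ta hd ok L lv brk)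
    (hU : ∀ i ≤ L, ∀ o, (lv i).obs o → ¬ o.Fired ok (brk i) → o.Flat g kap) :
    ∃ φ : ℕ → ℝ, ∀ z, ∀ l ≤ L, (lv l).G z → ok z →
      (∀ j < l, (lv j).Tch (brk j) (ta z) ∧ (lv j).Tch (brk j) (hd z)) →
      Con ta hd len g ((Γ ^ (L + 1) * kap : ℕ) : ℝ) φ z := by
  have hΓ1 : 1 ≤ Γ := le_trans (by nlinarith [Nat.zero_le ((lv 0).D), Nat.zero_le (J * (lv 0).D)])
    (hΓ 0 (Nat.zero_le _))
  have chain : ∀ (Φ : ℕ → ℕ → ℝ) (i l v : ℕ),
      (∀ j, i ≤ j → j < l → Φ j v = Φ (j + 1) v) → i ≤ l → Φ i v = Φ l v := by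
    intro Φ i l v h hl
    induction l, hl using Nat.le_induction with
    | base => rfl
    | succ l hl ih => rw [ih fun j a b => h j a (by omega), h l hl (by omega)]
  have key : ∀ n i, i + n = L + 1 → ∃ Φ : ℕ → ℕ → ℝ, ∀ j, i ≤ j → j ≤ L →
      (∀ u, (lv j).Tch (brk j) u → Φ j u = Φ (j + 1) u) ∧ ∀ z, (lv j).G z → ok z →
        Con ta hd len g ((Γ ^ n * kap : ℕ) : ℝ) (Φ j) z := by
    intro n
    induction n with
    | zero => exact fun i hi => ⟨fun _ _ => 0, fun j a b => by omega⟩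
    | succ n ih =>
      intro i hi
      obtain ⟨Φ, hΦ⟩ := ih (i + 1) (by omega)
      have hi' : i ≤ L := by omega
      have k1 : kap ≤ Γ ^ n * kap := Nat.le_mul_of_pos_left _ (Nat.pow_pos hΓ1)
      obtain ⟨φ, h1, h2⟩ := level (κ := ((Γ ^ n * kap : ℕ) : ℝ)) (φ' := Φ (i + 1))
        (by exact_mod_cast k1) (hc i hi') (hs i hi') (hd'.B i hi')
        (fun z hz q => (hΦ (i + 1) le_rfl (hd'.K i hi' z hz q).1).2 z (hd'.K i hi' z hz q).2 q)
        (hU i hi') fun o ho q => by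
          obtain ⟨l, a1, a2, a3, a4⟩ := hd'.T i hi' o ho q
          exact ⟨Φ l, fun z hz q => (hΦ l a1 a2).2 z (a3 z hz q) q, fun v hv =>
            chain Φ (i + 1) l v (fun j b1 b2 => (hΦ j b1 (by omega)).1 v (a4 j b1 b2 v hv)) a1⟩
      refine ⟨Function.update Φ i φ, fun j a b => ?_⟩
      rw [Function.update_of_ne (show j + 1 ≠ i by omega)]
      rcases a.eq_or_lt with rfl | a
      · rw [Function.update_self]
        refine ⟨h1, fun z hz q => (h2 z hz q).mono ?_⟩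
        have := Nat.mul_le_mul_right (Γ ^ n * kap) (hΓ i hi')
        have : ((((2 * (lv i).D + 1 + 4 * J * (lv i).D) * (4 * Λ) * (Γ ^ n * kap) : ℕ) : ℝ)) ≤
            ((Γ * (Γ ^ n * kap) : ℕ) : ℝ) := by exact_mod_cast this
        refine le_trans (le_of_eq ?_) (this.trans (le_of_eq ?_))
        · push_cast; ring
        · push_cast; ring
      · rw [Function.update_of_ne a.ne']
        refine ⟨(hΦ j a b).1, fun z hz q => ((hΦ j a b).2 z hz q).mono ?_⟩
        exact_mod_cast Nat.mul_le_mul_right _ (Nat.pow_le_pow_right hΓ1 (Nat.le_succ n))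
  obtain ⟨Φ, hΦ⟩ := key (L + 1) 0 (by omega)
  refine ⟨Φ 0, fun z l hl hz q ht => ?_⟩
  have := (hΦ l (Nat.zero_le _) hl).2 z hz q
  unfold Con at this ⊢
  rwa [chain Φ 0 l _ (fun j _ b => (hΦ j (Nat.zero_le _) (by omega)).1 _ (ht j b).1)
    (Nat.zero_le _), chain Φ 0 l _ (fun j _ b => (hΦ j (Nat.zero_le _) (by omega)).1 _ (ht j b).2)
    (Nat.zero_le _)]

end Vale.Agent.P305W
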