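import Vale.Agent.P305W.Defs

/-!
# Consistency of one object
-/

namespace Vale.Agent.P305W

open Vale.Agent.P305Q

namespace GO

variable {ta hd len : ℕ → ℕ} {g : ℕ → ℤ} {ok brk K : ℕ → Prop} {φ ψ : ℕ → ℝ} {κ : ℝ} {kap : ℕ}
  {o : GO}

theorem has_px {c : SI} (h : c ∈ o.px) : o.Has c.1 := Or.inl ⟨c, h, rfl⟩
theorem has_mid {c : SI} (h : c ∈ o.mid) : o.Has c.1 := Or.inr (Or.inl ⟨c, h, rfl⟩)
theorem has_py {c : SI} (h : c ∈ o.py) : o.Has c.1 := Or.inr (Or.inr (Or.inl ⟨c, h, rfl⟩))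
theorem has_Q {c : SI} (h : c ∈ o.Q) : o.Has c.1 := Or.inr (Or.inr (Or.inr ⟨c, h, rfl⟩))

theorem need_src {c : SI} (h : o.Has c.1) (q : ¬ ok c.1) : o.Need ta hd ok brk (src ta hd c) :=
  Or.inl ⟨_, h, q, by unfold src; cases c.2 <;> simp⟩

theorem OK.walk (h : o.OK ta hd len K) : IW ta hd o.a o.W o.b :=
  (h.wx.rev.append h.wm).append h.wy

theorem OK.len_le (h : o.OK ta hd len K) : nsum len o.W + nsum len o.Q ≤ o.nom := by
  have := h.nom
  simp only [W, nsum_append, nsum_rev]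
  omega

/-- After the object has fired, both potentials are close at its static ends. -/
theorem ends (hκ : 0 ≤ κ) (h : o.OK ta hd len K)
    (hφ : ∀ z, K z → ok z → Con ta hd len g κ φ z)
    (hψ : ∀ z, o.Has z → ok z → Con ta hd len g κ ψ z)
    (hn : ∀ v, o.Need ta hd ok brk v → φ v = ψ v)
    (hf : (∃ c ∈ o.px, ¬ ok c.1) ∨ (∃ c ∈ o.py, ¬ ok c.1) ∨ (∃ c ∈ o.Q, ¬ ok c.1) ∨ o.Bk brk) :
    |φ o.a - ψ o.a| ≤ 2 * κ * nsum len o.Q ∧ |φ o.b - ψ o.b| ≤ 2 * κ * nsum len o.Q := by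
  have h0 : 0 ≤ 2 * κ * nsum len o.Q := by positivity
  have A : ((∀ c ∈ o.Q, ok c.1) → φ o.b = ψ o.b) → |φ o.a - ψ o.a| ≤ 2 * κ * nsum len o.Q :=
    agree hκ h.wq (fun c hc q => ⟨hφ _ (h.qK c hc) q, hψ _ (has_Q hc) q⟩)
      fun c hc q => hn _ (need_src (has_Q hc) q)
  have B : ((∀ c ∈ o.Q, ok c.1) → φ o.a = ψ o.a) → |φ o.b - ψ o.b| ≤ 2 * κ * nsum len o.Q := by
    intro he
    rw [← nsum_rev]
    refine agree (g := g) (ok := ok) hκ h.wq.rev (fun c hc q => ?_) (fun c hc q => ?_)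
      fun ho => he fun c hc => ho (c.1, !c.2) (mem_rev.2 (by simpa using hc))
    · exact ⟨hφ _ (h.qK (c.1, !c.2) (mem_rev.1 hc)) q,
        hψ _ (has_Q (c := (c.1, !c.2)) (mem_rev.1 hc)) q⟩
    · exact hn _ (need_src (has_Q (c := (c.1, !c.2)) (mem_rev.1 hc)) q)
  rcases hf with q | q | ⟨c, hc, q⟩ | q
  · have e := hn _ (Or.inr (Or.inl ⟨rfl, q⟩))
    exact ⟨by rw [e]; simpa using h0, B fun _ => e⟩
  · have e := hn _ (Or.inr (Or.inr (Or.inl ⟨rfl, q⟩)))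
    exact ⟨A fun _ => e, by rw [e]; simpa using h0⟩
  · exact ⟨A fun ho => (q (ho c hc)).elim, B fun ho => (q (ho c hc)).elim⟩
  · have e := hn _ (Or.inr (Or.inr (Or.inr ⟨q, Or.inr rfl⟩)))
    exact ⟨A fun _ => e, by rw [e]; simpa using h0⟩

/-- An object whose middle part is valid is consistent. -/
theorem oc_mid (hk : (kap : ℝ) ≤ κ) (h : o.OK ta hd len K)
    (hφ : ∀ z, K z → ok z → Con ta hd len g κ φ z)
    (hU : ¬ o.Fired ok brk → o.Flat g kap)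
    (hF : o.Fired ok brk → ∃ ψ, (∀ z, o.Has z → ok z → Con ta hd len g κ ψ z) ∧
      ∀ v, o.Need ta hd ok brk v → φ v = ψ v)
    (hm : ∀ c ∈ o.mid, ok c.1) :
    |val ta hd g ok φ o.y o.py - val ta hd g ok φ o.x o.px - (ssum g o.mid : ℤ)| ≤
      4 * κ * o.nom := by
  have hκ : 0 ≤ κ := le_trans (by positivity) hk
  have hl : (nsum len o.px : ℝ) + nsum len o.mid + nsum len o.py + nsum len o.Q ≤ o.nom := by
    exact_mod_cast h.nom
  have l1 : (0 : ℝ) ≤ nsum len o.px := by positivity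
  have l2 : (0 : ℝ) ≤ nsum len o.mid := by positivity
  have l3 : (0 : ℝ) ≤ nsum len o.py := by positivity
  have l4 : (0 : ℝ) ≤ nsum len o.Q := by positivity
  by_cases q : o.Fired ok brk
  · obtain ⟨ψ, hψ, hn⟩ := hF q
    have hf : (∃ c ∈ o.px, ¬ ok c.1) ∨ (∃ c ∈ o.py, ¬ ok c.1) ∨ (∃ c ∈ o.Q, ¬ ok c.1) ∨
        o.Bk brk := by
      rcases q with ⟨z, ⟨c, hc, rfl⟩ | ⟨c, hc, rfl⟩ | ⟨c, hc, rfl⟩ | ⟨c, hc, rfl⟩, q⟩ | q
      · exact Or.inl ⟨c, hc, q⟩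
      · exact (q (hm c hc)).elim
      · exact Or.inr (Or.inl ⟨c, hc, q⟩)
      · exact Or.inr (Or.inr (Or.inl ⟨c, hc, q⟩))
      · exact Or.inr (Or.inr (Or.inr q))
    obtain ⟨A, B⟩ := ends hκ h hφ hψ hn hf
    have h1 := val_near hκ (by positivity) h.wx (fun c hc => hψ _ (has_px hc))
      (fun c hc q => hn _ (need_src (has_px hc) q)) A
    have h2 := val_near hκ (by positivity) h.wy (fun c hc => hψ _ (has_py hc))
      (fun c hc q => hn _ (need_src (has_py hc) q)) B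
    have h3 := h.wm.con fun c hc => hψ _ (has_mid hc) (hm c hc)
    rw [abs_le] at h1 h2 h3 ⊢
    constructor <;> nlinarith [h1.1, h1.2, h2.1, h2.2, h3.1, h3.2, mul_nonneg hκ l1,
      mul_nonneg hκ l2, mul_nonneg hκ l3, mul_le_mul_of_nonneg_left hl hκ]
  · have ho : ∀ z, o.Has z → ok z := fun z hz => by_contra fun k => q (Or.inl ⟨z, hz, k⟩)
    have h1 : (|ssum g o.W - ssum g o.Q| : ℝ) ≤ kap * o.nom := by exact_mod_cast hU q
    have h2 := h.wq.con fun c hc => hφ _ (h.qK c hc) (ho _ (has_Q hc))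
    rw [val_ok h.wx fun c hc => ho _ (has_px hc), val_ok h.wy fun c hc => ho _ (has_py hc)]
    simp only [W, ssum_append, ssum_rev] at h1
    push_cast at h1
    have h3 : (kap : ℝ) * o.nom ≤ κ * o.nom := mul_le_mul_of_nonneg_right hk (by positivity)
    have h4 : κ * nsum len o.Q ≤ κ * o.nom := mul_le_mul_of_nonneg_left (by linarith) hκ
    have h5 : 0 ≤ κ * o.nom := by positivity
    rw [abs_le] at h1 h2 ⊢
    constructor <;> linarith [h1.1, h1.2, h2.1, h2.2]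

/-- An object whose cluster is broken is consistent. -/
theorem oc_brk (hκ : 0 ≤ κ) (h : o.OK ta hd len K)
    (hφ : ∀ z, K z → ok z → Con ta hd len g κ φ z) (hb : o.Bk brk)
    (hF : o.Fired ok brk → ∃ ψ, (∀ z, o.Has z → ok z → Con ta hd len g κ ψ z) ∧
      ∀ v, o.Need ta hd ok brk v → φ v = ψ v) :
    |val ta hd g ok φ o.x o.px - val ta hd g ok φ o.x o.mid| ≤ 4 * κ * o.nom := by
  have hl : (nsum len o.px : ℝ) + nsum len o.mid + nsum len o.py + nsum len o.Q ≤ o.nom := by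
    exact_mod_cast h.nom
  have l1 : (0 : ℝ) ≤ nsum len o.px := by positivity
  have l2 : (0 : ℝ) ≤ nsum len o.mid := by positivity
  have l3 : (0 : ℝ) ≤ nsum len o.py := by positivity
  have l4 : (0 : ℝ) ≤ nsum len o.Q := by positivity
  obtain ⟨ψ, hψ, hn⟩ := hF (Or.inr hb)
  obtain ⟨A, -⟩ := ends hκ h hφ hψ hn (Or.inr (Or.inr (Or.inr hb)))
  have h1 := val_near hκ (by positivity) h.wx (fun c hc => hψ _ (has_px hc))
    (fun c hc q => hn _ (need_src (has_px hc) q)) A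
  have h2 := val_near (E := 0) hκ le_rfl h.wm (fun c hc => hψ _ (has_mid hc))
    (fun c hc q => hn _ (need_src (has_mid hc) q))
    (by rw [hn _ (Or.inr (Or.inr (Or.inr ⟨hb, Or.inl rfl⟩)))]; simp)
  rw [abs_le] at h1 h2 ⊢
  constructor <;> nlinarith [h1.1, h1.2, h2.1, h2.2, mul_nonneg hκ l1, mul_nonneg hκ l4,
    mul_nonneg hκ l2, mul_nonneg hκ l3, mul_le_mul_of_nonneg_left hl hκ]

end GO

end Vale.Agent.P305W
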