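import Vale.Agent.P305W.Tab
import Vale.Agent.P305W.Obj

/-!
# Consistency of the objects of a level
-/

namespace Vale.Agent.P305W

open Vale.Agent.P305E Vale.Agent.P305M Vale.Agent.P305U Vale.Agent.P305Y Vale.Agent.P305Q
  Vale.Agent.P305CV

theorem IW.unique {ta hd : ℕ → ℕ} {a b b' : ℕ} {l : List SI} (h : IW ta hd a l b)
    (h' : IW ta hd a l b') : b = b' := by
  induction l generalizing a with
  | nil => exact h.symm.trans h'
  | cons c l ih => exact ih h.2 h'.2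

theorem con_iff {it : ℕ → RA} {φ : ℕ → ℝ} {K : ℝ} {z : ℕ} :
    Con (fta it) (fhd it) (fln it) (fg it) K φ z ↔ P305Y.Con it φ K z := by
  unfold Con P305Y.Con
  rw [abs_sub_comm]

section congr
variable {ta hd len ta' hd' len' : ℕ → ℕ} {N k J : ℕ} {P R : ℕ → ℕ} {vs : List ℕ} {G : List WE}
  {cs : List (ℕ × Cl)} {V : LV}

theorem in_congr (h : In ta hd len N J R vs G cs) (e : ∀ x ∈ G, ta' x.2.2.2 = ta x.2.2.2 ∧
    hd' x.2.2.2 = hd x.2.2.2 ∧ len' x.2.2.2 = len x.2.2.2) : In ta' hd' len' N J R vs G cs :=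
  ⟨h.nd, h.lt, h.ed, fun x hx => by
    rw [(e x hx).1, (e x hx).2.1, (e x hx).2.2]; exact h.it x hx, h.ids, h.cl, h.few⟩

theorem wk_mem (h : LvOK ta hd len N k J P R vs G cs V) {a : ℕ} {c : SI} (hc : c ∈ V.F.wk.get a) :
    ∃ v ∈ V.F.sp.get a, V.F.te.get v = c ∧ ∃ x ∈ G, x.2.2.2 = c.1 := by
  rw [h.wk, List.mem_map] at hc
  obtain ⟨v, hv, rfl⟩ := hc
  rcases h.fo v with q | q
  · exact ((h.sp_mem a v hv).2.2.2 q.1).elim
  · exact ⟨v, hv, rfl, q.2.2.2.2.2.1⟩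

theorem lvOK_congr (h : LvOK ta hd len N k J P R vs G cs V) (e : ∀ x ∈ G,
    ta' x.2.2.2 = ta x.2.2.2 ∧ hd' x.2.2.2 = hd x.2.2.2 ∧ len' x.2.2.2 = len x.2.2.2) :
    LvOK ta' hd' len' N k J P R vs G cs V := by
  have A : ∀ {l : List SI}, (∀ c ∈ l, ∃ x ∈ G, x.2.2.2 = c.1) → nsum len' l = nsum len l := by
    intro l hl
    refine le_antisymm (nsum_le fun c hc => ?_) (nsum_le fun c hc => ?_) <;>
    · obtain ⟨x, hx, q⟩ := hl c hc
      rw [← q, (e x hx).2.2]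
  have B : ∀ {l : List SI} {a b : ℕ}, (∀ c ∈ l, ∃ x ∈ G, x.2.2.2 = c.1) → IW ta hd a l b →
      IW ta' hd' a l b := fun hl hw => hw.congr fun c hc => by
    obtain ⟨x, hx, q⟩ := hl c hc
    rw [← q]; exact ⟨(e x hx).1, (e x hx).2.1⟩
  have C : ∀ a, ∀ c ∈ V.F.wk.get a, ∃ x ∈ G, x.2.2.2 = c.1 := fun a c hc => by
    obtain ⟨v, -, -, q⟩ := wk_mem h hc; exact q
  refine { h with fo := fun a => (h.fo a).imp id ?_, walk := fun a => B (C a) (h.walk a)
                  wk_len := fun a => (A (C a)).trans_le (h.wk_len a)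
                  owalk := fun o ho => B (h.olen o ho).2.2.2 (h.owalk o ho)
                  olen := fun o ho => ⟨(h.olen o ho).1, (A (h.olen o ho).2.2.2).trans_le
                    (h.olen o ho).2.1, (h.olen o ho).2.2⟩ }
  rintro ⟨a1, a2, a3, a4, a5, ⟨x, hx, q⟩, a7, a8⟩
  have e1 := e x hx
  rw [q] at e1
  exact ⟨a1, a2, a3, a4, a5, ⟨x, hx, q⟩, by rw [← a7]; simp only [src, e1.1, e1.2.1],
    by rw [← a8]; simp only [dst, e1.1, e1.2.1]⟩

end congr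

/-- The ghost object of an object. -/
def gob (it : ℕ → RA) (V : LV) (o : Ob) (Q : SW) : GO :=
  ⟨o.x % V.N, o.y % V.N, V.a0 o, V.b0 o, V.F.wk.get o.x, o.eo.toList ++ V.F.wk.get o.z,
    V.F.wk.get o.y, Q, wlen it (V.F.W o) + wlen it Q, o.tr⟩

variable {it : ℕ → RA} {N k J κ : ℕ} {P R ql : ℕ → ℕ} {vs G : List ℕ} {G' : List WE}
  {cs : List (ℕ × Cl)} {V : LV} {Q : ℕ → SW} {L : Lvl} {i : ℕ} {o : Ob}

theorem gob_W {q : SW} : (gob it V o q).W = V.F.W o := by simp [gob, GO.W, Fo.W]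

theorem gob_has {q : SW} {z : ℕ} : (gob it V o q).Has z ↔ ∃ c ∈ V.F.W o ++ q, c.1 = z := by
  simp only [gob, GO.Has, Fo.W, List.mem_append, or_and_right, exists_or, or_assoc]
  refine or_congr_left ⟨?_, ?_⟩
  · rintro ⟨c, hc, rfl⟩; exact ⟨(c.1, !c.2), mem_rev.2 (by simpa using hc), rfl⟩
  · rintro ⟨c, hc, rfl⟩; exact ⟨(c.1, !c.2), mem_rev.1 hc, rfl⟩

theorem gob_ok (h : LvOK (fta it) (fhd it) (fln it) N k J P R vs G' cs V)
    (ht : TabOK it V Q ql G L κ) (ho : V.obs[i]? = some o) :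
    (gob it V o (Q i)).OK (fta it) (fhd it) (fln it) (· ∈ L.K) := by
  have hN := h.N_eq
  subst hN
  have wx : IW (fta it) (fhd it) (o.x % V.N) (V.F.wk.get o.x) (V.a0 o) := h.walk o.x
  have wy : IW (fta it) (fhd it) (o.y % V.N) (V.F.wk.get o.y) (V.b0 o) := h.walk o.y
  refine ⟨wx, ?_, wy, iw_iff.2 (ht.wq i o ho), ht.qk i o ho, le_of_eq ?_⟩
  · have := h.owalk o (List.mem_of_getElem? ho)
    rw [← gob_W (it := it) (q := Q i), GO.W] at this
    obtain ⟨y, h1, h2⟩ := this.split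
    obtain ⟨x, h3, h4⟩ := h1.split
    rw [h3.unique wx.rev, h2.rev.unique wy.rev] at h4
    exact h4
  · simp only [gob, Fo.W, wlen, nsum_append, nsum_rev]
    unfold fln
    omega

/-- The two facts about the objects of a level. -/
theorem oc (hi : In (fta it) (fhd it) (fln it) N J R vs G' cs)
    (h : LvOK (fta it) (fhd it) (fln it) N k J P R vs G' cs V)
    (hG : ∀ e ∈ G', e.2.2.2 ∈ G) (ht : TabOK it V Q ql G L κ) {bad brk : ℕ → Prop} {φ' : ℕ → ℝ}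
    {ψ : ℕ → ℕ → ℝ} {K : ℝ} (hk : (κ : ℝ) ≤ K) (h1 : ∀ z ∈ L.K, ¬ bad z → P305Y.Con it φ' K z)
    (h2 : ∀ z, z ∈ G ∨ z ∈ L.P → bad z → Abs it bad φ' ψ K (L.em z) (L.tl z))
    (h3 : ∀ C, brk C → Abs it bad φ' ψ K (L.cem C) (L.ctl C))
    (h4 : ∀ w ∈ L.cand, ∃ c ∈ w, bad c.1) (ho : V.obs[i]? = some o) :
    ((∀ c ∈ o.eo.toList ++ V.F.wk.get o.z, ¬ bad c.1) →
      |val (fta it) (fhd it) (fg it) (fun z => ¬ bad z) φ' (o.y % N) (V.F.wk.get o.y) -
        val (fta it) (fhd it) (fg it) (fun z => ¬ bad z) φ' (o.x % N) (V.F.wk.get o.x) -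
        (ssum (fg it) (o.eo.toList ++ V.F.wk.get o.z) : ℤ)| ≤
        4 * K * (wlen it (V.F.W o) + wlen it (Q i) : ℕ)) ∧
    ∀ j, o.tr = some j → brk j →
      |val (fta it) (fhd it) (fg it) (fun z => ¬ bad z) φ' (o.z % N) (V.F.wk.get o.z) -
        val (fta it) (fhd it) (fg it) (fun z => ¬ bad z) φ' (o.x % N) (V.F.wk.get o.x)| ≤
        4 * K * (wlen it (V.F.W o) + wlen it (Q i) : ℕ) := by
  classical
  have hm := List.mem_of_getElem? ho
  have hN := h.N_eq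
  have ok := gob_ok h ht ho
  set u := gob it V o (Q i) with hu
  have hφ : ∀ z, z ∈ L.K → ¬ bad z → Con (fta it) (fhd it) (fln it) (fg it) K φ' z :=
    fun z a b => con_iff.2 (h1 z a b)
  have hmu : ∀ j, o.tr = some j → o.eo = none ∧ o.z % N = o.x % N ∧ o.y % N = V.ctr.get j := by
    intro j hj
    rcases (h.obs o).1 hm with ⟨e, -, j', -, rfl⟩ | ⟨v, j1, j2, -, -, -, rfl⟩ |
      ⟨v, j1, j2, ⟨-, -, ⟨p, a1, a2⟩, -⟩, -, rfl⟩
    · simp [kap] at hj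
    · simp [lam] at hj
    · simp only [mu, Option.some.injEq] at hj
      subst hj
      have := hi.lt _ ((hi.cl p (List.mem_of_getElem? a1)).1 _ a2)
      simp [mu, hN, Nat.mod_eq_of_lt this]
  have hin : ∀ z, u.Has z → z ∈ G ∨ z ∈ L.P := by
    intro z hz
    obtain ⟨c, hc, rfl⟩ := gob_has.1 hz
    rcases List.mem_append.1 hc with q | q
    · obtain ⟨e, he, q⟩ := (h.olen o hm).2.2.2 c q
      exact Or.inl (q ▸ hG e he)
    · exact ht.kk _ (ht.qk i o ho c q)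
  have hU : ¬ u.Fired (fun z => ¬ bad z) brk → u.Flat (fg it) κ := by
    intro q
    unfold GO.Flat
    rw [gob_W]
    have e1 : wg it (V.F.W o ++ P305Y.rev (Q i)) = ssum (fg it) (V.F.W o) - ssum (fg it) u.Q := by
      rw [wg_append, wg_rev]; rfl
    have e2 : wlen it (V.F.W o ++ P305Y.rev (Q i)) = u.nom := by
      rw [wlen_append, wlen_rev]; rfl
    rw [← e1]
    by_contra s
    obtain ⟨w, a1, a2⟩ := ht.cand i o ho (by rw [e2]; exact not_le.1 s)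
    obtain ⟨c, b1, b2⟩ := h4 w a1
    exact q (Or.inl ⟨c.1, gob_has.2 (a2 c b1), not_not.2 b2⟩)
  have hF : u.Fired (fun z => ¬ bad z) brk → ∃ χ : ℕ → ℝ,
      (∀ z, u.Has z → ¬ bad z → Con (fta it) (fhd it) (fln it) (fg it) K χ z) ∧
      ∀ v, u.Need (fta it) (fhd it) (fun z => ¬ bad z) brk v → φ' v = χ v := by
    intro q
    have A : ∀ z, u.Has z → bad z → ∃ l, (∀ z, u.Has z → ¬ bad z → P305Y.Con it (ψ l) K z) ∧
        ∀ j ≤ l, ∀ y ∈ L.tl z, ψ j y = φ' y := by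
      intro z hz b
      obtain ⟨l, a1, a2⟩ := h2 z (hin z hz) b
      refine ⟨l, fun y hy => a1 y ?_, a2⟩
      obtain ⟨c, hc, rfl⟩ := gob_has.1 hz
      obtain ⟨c', hc', rfl⟩ := gob_has.1 hy
      exact ht.em i o ho c hc c' hc'
    have B : ∀ C, o.tr = some C → brk C → ∃ l,
        (∀ z, u.Has z → ¬ bad z → P305Y.Con it (ψ l) K z) ∧
        ∀ j ≤ l, ∀ y ∈ L.ctl C, ψ j y = φ' y := by
      intro C hC b
      obtain ⟨l, a1, a2⟩ := h3 C b
      refine ⟨l, fun y hy => a1 y ?_, a2⟩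
      obtain ⟨c', hc', rfl⟩ := gob_has.1 hy
      exact ht.cem i o ho C hC c' hc'
    have ex : ∃ l, ∀ z, u.Has z → ¬ bad z → P305Y.Con it (ψ l) K z := by
      rcases q with ⟨z, hz, b⟩ | ⟨C, hC, b⟩
      · exact (A z hz (not_not.1 b)).imp fun _ a => a.1
      · exact (B C hC b).imp fun _ a => a.1
    have A' : ∀ z, u.Has z → ¬ ¬ bad z → ∀ y ∈ L.tl z, φ' y = ψ (Nat.find ex) y := by
      intro z hz b y hy
      obtain ⟨l, a1, a2⟩ := A z hz (not_not.1 b)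
      exact (a2 _ (Nat.find_min' ex a1) y hy).symm
    have R : ∀ a, ∀ c ∈ V.F.wk.get a, V.F.r a % V.N ∈ L.tl c.1 := by
      intro a c hc
      obtain ⟨v, hv, rfl, -⟩ := wk_mem h hc
      rw [← (h.sp_mem a v hv).2.2.1]
      exact ht.tlr v ((h.ns v).2 (h.sp_mem a v hv).2.2.2)
    refine ⟨ψ (Nat.find ex), fun z a b => con_iff.2 (Nat.find_spec ex z a b), ?_⟩
    rintro v (⟨z, hz, b, rfl | rfl⟩ | ⟨rfl, c, hc, b⟩ | ⟨rfl, c, hc, b⟩ | ⟨⟨C, hC, b⟩, hv⟩)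
    · exact A' z hz b _ (ht.tle z (hin z hz)).1
    · exact A' z hz b _ (ht.tle z (hin z hz)).2
    · exact A' _ (GO.has_px hc) b _ (R o.x c hc)
    · exact A' _ (GO.has_py hc) b _ (R o.y c hc)
    · obtain ⟨l, a1, a2⟩ := B C hC b
      refine (a2 _ (Nat.find_min' ex a1) v ?_).symm
      rcases hv with rfl | rfl
      · have : u.y = V.ctr.get C := by rw [← (hmu C hC).2.2, ← hN]; rfl
        exact this ▸ (ht.ctl o hm C hC).1
      · exact (ht.ctl o hm C hC).2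
  refine ⟨fun hm => hN ▸ GO.oc_mid hk ok hφ hU hF hm, fun j hj b => ?_⟩
  have := GO.oc_brk (le_trans (by positivity) hk) ok hφ ⟨j, hj, b⟩ hF
  obtain ⟨a1, a2, -⟩ := hmu j hj
  rw [abs_sub_comm, a2, ← hN]
  simpa only [hu, gob, a1, Option.toList_none, List.nil_append] using this

end Vale.Agent.P305W
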