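import Vale.Agent.P305W.OC
import Vale.Agent.P305V.Pre

/-!
# Soundness of a level
-/

namespace Vale.Agent.P305W

open Vale.Agent.P305E Vale.Agent.P305M Vale.Agent.P305U Vale.Agent.P305Y Vale.Agent.P305Q
  Vale.Agent.P305CV

/-- **Soundness of a level.** -/
theorem sound {it₀ it : ℕ → RA} {N k J κ b D Lm γ Γ : ℕ} {P R ql : ℕ → ℕ} {vs G : List ℕ}
    {G' : List WE} {cs : List (ℕ × Cl)} {V : LV} {Q : ℕ → SW} {L : Lvl}
    (hi : In (fta it₀) (fhd it₀) (fln it₀) N J R vs G' cs)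
    (h : LvOK (fta it₀) (fhd it₀) (fln it₀) N k J P R vs G' cs V) (hP : ∀ s ≤ D, P s = PS b s)
    (hM : MCov b D G' vs cs) (hR : ∀ s ≤ D, 2 * R s ≤ PS b (s + 1))
    (hLm : ∀ e ∈ G', 1 ≤ e.2.2.1 ∧ e.2.2.1 ≤ Lm) (hD : vs.length * Lm ≤ PS b D) (hD1 : 1 ≤ D)
    (hG : ∀ z, z ∈ G ↔ ∃ e ∈ G', e.2.2.2 = z) (hit : ∀ z ∈ G, it z = it₀ z)
    (ht : TabOK it V Q ql G L κ) (hq : ∀ s ≤ D, ql s ≤ γ * (3 * PS b (s + 1)))
    (hΓ : (2 * D + 1 + 4 * (b + 1) * D) * (12 * (γ + 1) * (16 * b + 16) ^ 2) ≤ Γ) :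
    Sound it G L κ Γ := by
  have e : ∀ x ∈ G', fta it x.2.2.2 = fta it₀ x.2.2.2 ∧ fhd it x.2.2.2 = fhd it₀ x.2.2.2 ∧
      fln it x.2.2.2 = fln it₀ x.2.2.2 := fun x hx => by
    simp only [fta, fhd, fln, hit _ ((hG _).2 ⟨x, hx, rfl⟩), and_self]
  replace hi := in_congr hi e
  replace h := lvOK_congr h e
  intro bad brk φ' ψ K hk h0 h1 h2 h3 h4
  have hK : 0 ≤ K := le_trans (by positivity) hk
  have nom : ∀ i o, V.obs[i]? = some o → 4 * K * (wlen it (V.F.W o) + wlen it (Q i) : ℕ) ≤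
      4 * K * ((γ + 1) * (3 * PS b (o.sc + 1)) : ℕ) := by
    intro i o ho
    have hm := List.mem_of_getElem? ho
    have hs : o.sc ≤ D := by
      have A : ∀ j u, Mem cs j u → V.sc.get j ≤ D := fun j u ⟨p, a, _⟩ =>
        (h.info j p a).1 ▸ hM.sc p (List.mem_of_getElem? a)
      rcases (h.obs o).1 hm with ⟨e, -, j, a, rfl⟩ | ⟨v, j1, j2, a, -, -, rfl⟩ |
        ⟨v, j1, j2, a, -, rfl⟩
      exacts [A _ _ a.1, A _ _ a.2.1, A _ _ a.2.1]
    obtain ⟨a1, a2, -⟩ := h.olen o hm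
    have a3 := (ht.qw i o ho).trans (hq _ hs)
    have a4 := hR _ hs
    have a5 := hR (o.sc - 1) (by omega)
    rw [Nat.sub_add_cancel a1] at a5
    have a6 := PS_mono b (Nat.le_succ o.sc)
    rw [hP _ hs] at a2
    have a7 : wlen it (V.F.W o) ≤ 3 * PS b (o.sc + 1) := le_trans a2 (by
      simp only [Nat.succ_eq_add_one] at a6; omega)
    refine mul_le_mul_of_nonneg_left ?_ (by positivity)
    exact_mod_cast (by rw [Nat.add_mul]; omega)
  have key := fun i o (ho : V.obs[i]? = some o) =>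
    oc hi h (fun e he => (hG _).2 ⟨e, he, rfl⟩) ht hk h1 h2 h3 h4 ho
  obtain ⟨φ, a1, a2⟩ := P305V.prelift hi h hP hM hLm hD hD1 (g := fg it) (ok := fun z => ¬ bad z)
    (brk := brk) (φ' := φ') (Bd := fun s => 4 * K * ((γ + 1) * (3 * PS b (s + 1)) : ℕ))
    (Γ := 12 * (γ + 1) * (16 * b + 16) ^ 2 * K) (by positivity)
    (fun s _ => le_of_eq (by rw [PS_succ, PS_succ]; push_cast; ring))
    (fun x hx q => by
      obtain ⟨c1, c2, -⟩ := h0 _ ((hG _).2 ⟨x, hx, rfl⟩) (not_not.1 q)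
      obtain ⟨d1, d2, -⟩ := hi.it x hx
      exact ⟨fun j hj => c1 j ((ht.cls _ _).2 (by rw [show (it _).1 = _ from d1]; exact hj)),
        fun j hj => c2 j ((ht.cls _ _).2 (by rw [show (it _).2.1 = _ from d2]; exact hj))⟩)
    (fun o ho hm => by
      obtain ⟨i, hi'⟩ := List.getElem?_of_mem ho
      have := ((key i o hi').1 hm).trans (nom i o hi')
      rw [← h.N_eq] at this
      exact this)
    (fun o ho j hj q => by
      obtain ⟨i, hi'⟩ := List.getElem?_of_mem ho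
      have := ((key i o hi').2 j hj q).trans (nom i o hi')
      rw [← h.N_eq] at this
      exact this)
  refine ⟨φ, fun z hz q => ?_, fun u hu => a2 u fun j hj => hu j ((ht.cls _ _).2 hj)⟩
  obtain ⟨x, hx, rfl⟩ := (hG z).1 hz
  refine con_iff.1 ((a1 x hx q).mono ?_)
  rw [← mul_assoc]
  refine mul_le_mul_of_nonneg_right ?_ hK
  exact_mod_cast hΓ

end Vale.Agent.P305W
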